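import Vale.Agent.P226.Main

namespace Vale.Agent.Results.P226.Propeller

open MeasureTheory ProbabilityTheory

theorem result (d k : ℕ) (A : Fin k → Set (EuclideanSpace ℝ (Fin d)))
    (hmeas : ∀ i, NullMeasurableSet (A i) (stdGaussian (EuclideanSpace ℝ (Fin d))))
    (hdisj : ∀ i j, i ≠ j → stdGaussian (EuclideanSpace ℝ (Fin d)) (A i ∩ A j) = 0)
    (hcover : stdGaussian (EuclideanSpace ℝ (Fin d)) (⋃ i, A i)ᶜ = 0) :
    ∑ i, ‖∫ x in A i, x ∂stdGaussian (EuclideanSpace ℝ (Fin d))‖ ^ 2 ≤ 9 / (8 * Real.pi) := by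
  rcases Nat.eq_zero_or_pos k with rfl | hk
  · simp only [Finset.univ_eq_empty, Finset.sum_empty]
    positivity
  have hs : (Finset.univ : Finset (Fin k)).Nonempty := ⟨⟨0, hk⟩, Finset.mem_univ _⟩
  have hP : Vale.Agent.P226.Part A := ⟨hmeas, hdisj, ae_eq_univ.2 hcover⟩
  exact hP.le_tau hs (Vale.Agent.P226.bound_all _ _ (Fin k) rfl hs)

end Vale.Agent.Results.P226.Propeller
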